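import Mathlib
import Vale.Agent.Lib.P248.helper37.Q2Defs

/-!
P248 pool job Q2AB-J7 (owner helper37): the tree inequality `tree_alg`.
-/

open MeasureTheory Set

namespace Vale.Agent.Lib.P248.H7

open Vale.Agent.Lib.P248.H37 Vale.Agent.Lib.P248.H37Q

/-- Young inequality with natural exponents. -/
theorem young_nat (p : ℕ) (a y : ℝ) (ha : 0 ≤ a) (hy : 0 ≤ y) :
    ((p : ℝ) + 1) * a * y ^ p ≤ a ^ (p + 1) + p * y ^ (p + 1) := by
  induction p with
  | zero => simp
  | succ p ih =>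
    have h1 : 0 ≤ (a - y) * (a ^ (p + 1) - y ^ (p + 1)) := by
      rcases le_total a y with h | h
      · have : a ^ (p + 1) ≤ y ^ (p + 1) := pow_le_pow_left₀ ha h _
        nlinarith
      · have : y ^ (p + 1) ≤ a ^ (p + 1) := pow_le_pow_left₀ hy h _
        nlinarith
    have h2 := mul_le_mul_of_nonneg_left ih hy
    have e1 : (a - y) * (a ^ (p + 1) - y ^ (p + 1))
        = a ^ (p + 1 + 1) + y ^ (p + 1 + 1) - a * y ^ (p + 1) - y * a ^ (p + 1) := by ring
    have e2 : y * (((p : ℝ) + 1) * a * y ^ p) = ((p : ℝ) + 1) * a * y ^ (p + 1) := by ring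
    have e3 : y * (a ^ (p + 1) + p * y ^ (p + 1)) = y * a ^ (p + 1) + p * y ^ (p + 1 + 1) := by
      ring
    rw [e1] at h1
    rw [e2, e3] at h2
    push_cast
    have e4 : ((p : ℝ) + 1 + 1) * a * y ^ (p + 1)
        = ((p : ℝ) + 1) * a * y ^ (p + 1) + a * y ^ (p + 1) := by ring
    have e5 : ((p : ℝ) + 1) * y ^ (p + 1 + 1) = p * y ^ (p + 1 + 1) + y ^ (p + 1 + 1) := by ring
    rw [e4, e5]
    linarith

/-- Weighted inequality of arithmetic and geometric means with natural weights. -/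
theorem amgm_nat (k j : ℕ) (r : ℝ) (hr : 0 ≤ r) :
    (((k + j : ℕ) : ℝ)) * r ^ k ≤ j + k * r ^ (k + j) := by
  induction j with
  | zero => simp
  | succ j ih =>
    rcases Nat.eq_zero_or_pos (k + j) with h0 | hpos
    · have hk : k = 0 := by omega
      have hj : j = 0 := by omega
      subst hk
      subst hj
      simp
    · have hy := young_nat (k + j) 1 r zero_le_one hr
      have hn : (0 : ℝ) < ((k + j : ℕ) : ℝ) := by exact_mod_cast hpos
      have hk0 : (0 : ℝ) ≤ (k : ℝ) := Nat.cast_nonneg k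
      have key : ((k + j : ℕ) : ℝ) * ((((k + (j + 1) : ℕ)) : ℝ) * r ^ k)
          ≤ ((k + j : ℕ) : ℝ) * (((j + 1 : ℕ) : ℝ) + k * r ^ (k + (j + 1))) := by
        have a1 : ((k + j : ℕ) : ℝ) * ((((k + (j + 1) : ℕ)) : ℝ) * r ^ k)
            = (((k + j : ℕ) : ℝ) + 1) * (((k + j : ℕ) : ℝ) * r ^ k) := by
          push_cast
          ring
        have a2 : (((k + j : ℕ) : ℝ) + 1) * (((k + j : ℕ) : ℝ) * r ^ k)
            ≤ (((k + j : ℕ) : ℝ) + 1) * ((j : ℝ) + k * r ^ (k + j)) :=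
          mul_le_mul_of_nonneg_left ih (by positivity)
        have a3 : (k : ℝ) * ((((k + j : ℕ) : ℝ) + 1) * 1 * r ^ (k + j))
            ≤ (k : ℝ) * (1 ^ (k + j + 1) + ((k + j : ℕ) : ℝ) * r ^ (k + j + 1)) :=
          mul_le_mul_of_nonneg_left hy hk0
        have a4 : (((k + j : ℕ) : ℝ) + 1) * ((j : ℝ) + k * r ^ (k + j))
            = (((k + j : ℕ) : ℝ) + 1) * j + (k : ℝ) * ((((k + j : ℕ) : ℝ) + 1) * 1 * r ^ (k + j)) := by
          ring
        have a5 : (((k + j : ℕ) : ℝ) + 1) * j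
              + (k : ℝ) * (1 ^ (k + j + 1) + ((k + j : ℕ) : ℝ) * r ^ (k + j + 1))
            = ((k + j : ℕ) : ℝ) * (((j + 1 : ℕ) : ℝ) + k * r ^ (k + (j + 1))) := by
          push_cast
          rw [one_pow, show k + (j + 1) = k + j + 1 from rfl]
          ring
        rw [a1]
        calc (((k + j : ℕ) : ℝ) + 1) * (((k + j : ℕ) : ℝ) * r ^ k)
            ≤ (((k + j : ℕ) : ℝ) + 1) * ((j : ℝ) + k * r ^ (k + j)) := a2
          _ = (((k + j : ℕ) : ℝ) + 1) * j
                + (k : ℝ) * ((((k + j : ℕ) : ℝ) + 1) * 1 * r ^ (k + j)) := a4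
          _ ≤ (((k + j : ℕ) : ℝ) + 1) * j
                + (k : ℝ) * (1 ^ (k + j + 1) + ((k + j : ℕ) : ℝ) * r ^ (k + j + 1)) := by
              linarith
          _ = _ := a5
      exact le_of_mul_le_mul_left key hn

/-! ### Unfolding lemmas for the tree functions (all by definitional unfolding) -/

theorem u_leaf : (LT.leaf).u = 1 := rfl

theorem u_node {m : ℕ} (u b : ℝ) (ch : Fin (m + 1) → LT m) : (LT.node u b ch).u = u := rfl

theorem b_leaf : (LT.leaf).b = 1 := rfl

theorem b_node {m : ℕ} (u b : ℝ) (ch : Fin (m + 1) → LT m) : (LT.node u b ch).b = b := rfl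

theorem ok_node {m : ℕ} (u b : ℝ) (ch : Fin (m + 1) → LT m) :
    (LT.node u b ch).Ok ↔
      0 < u ∧ 0 < b ∧ (∀ i, (ch i).Ok) ∧ ∑ i, (1 + (ch i).u / u) * (ch i).b ≤ b := Iff.rfl

theorem om_zero {m : ℕ} (s : LT m) : LT.Om 0 s = s.u := rfl

theorem om_succ_node {m : ℕ} (k : ℕ) (u b : ℝ) (ch : Fin (m + 1) → LT m) :
    LT.Om (k + 1) (LT.node u b ch) = ∑ i, LT.Om k (ch i) := rfl

theorem ok_u_pos {d : ℕ} (s : LT d) (hs : s.Ok) : 0 < s.u := by
  cases s with
  | leaf => rw [u_leaf]; exact one_pos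
  | node u b ch => rw [u_node]; exact ((ok_node u b ch).mp hs).1

theorem ok_b_pos {d : ℕ} (s : LT d) (hs : s.Ok) : 0 < s.b := by
  cases s with
  | leaf => rw [b_leaf]; exact one_pos
  | node u b ch => rw [b_node]; exact ((ok_node u b ch).mp hs).2.1

/-! ### The auxiliary quantities -/

/-- The normalized first label of the root of a subtree of height `d` inside a tree of
height `N`. -/
noncomputable def X (N : ℕ) {d : ℕ} (s : LT d) : ℝ :=
  ((N.choose d : ℝ) * s.u) ^ (((N + 1 : ℕ) : ℝ))⁻¹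

/-- The weighted power sum over all nodes of a subtree. -/
noncomputable def Phi (N p : ℕ) : {d : ℕ} → LT d → ℝ
  | _, LT.leaf => 1
  | _, @LT.node d u b ch =>
    ((d + 1).factorial : ℝ) * (X N (LT.node u b ch)) ^ p + ∑ i, Phi N p (ch i)

/-- The normalized second label of the root of a subtree. -/
noncomputable def Bt (N : ℕ) {d : ℕ} (s : LT d) : ℝ :=
  s.b * (X N s) ^ (N - d) * (d.factorial : ℝ) / ((N : ℝ) + 1) ^ d

theorem phi_leaf (N p : ℕ) : Phi N p LT.leaf = 1 := rfl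

theorem phi_node (N p : ℕ) {d : ℕ} (u b : ℝ) (ch : Fin (d + 1) → LT d) :
    Phi N p (LT.node u b ch)
      = ((d + 1).factorial : ℝ) * (X N (LT.node u b ch)) ^ p + ∑ i, Phi N p (ch i) := rfl

theorem X_pos (N : ℕ) {d : ℕ} (s : LT d) (hs : s.Ok) (hd : d ≤ N) : 0 < X N s := by
  have hc : (0 : ℝ) < (N.choose d : ℝ) := by exact_mod_cast Nat.choose_pos hd
  exact Real.rpow_pos_of_pos (mul_pos hc (ok_u_pos s hs)) _

theorem X_pow (N : ℕ) {d : ℕ} (s : LT d) (hs : s.Ok) (hd : d ≤ N) :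
    X N s ^ (N + 1) = (N.choose d : ℝ) * s.u := by
  have hc : (0 : ℝ) < (N.choose d : ℝ) := by exact_mod_cast Nat.choose_pos hd
  exact Real.rpow_inv_natCast_pow (mul_pos hc (ok_u_pos s hs)).le (Nat.succ_ne_zero N)

theorem phi_pos (N p : ℕ) {d : ℕ} (s : LT d) (hs : s.Ok) (hd : d ≤ N) : 0 < Phi N p s := by
  induction s with
  | leaf => rw [phi_leaf]; exact one_pos
  | @node m u b ch ih =>
    rw [phi_node]
    have hx := X_pos N (LT.node u b ch) hs hd
    have h1 : 0 < ((m + 1).factorial : ℝ) * (X N (LT.node u b ch)) ^ p := by positivity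
    have h2 : 0 ≤ ∑ i, Phi N p (ch i) :=
      Finset.sum_nonneg (fun i _ => (ih i (((ok_node u b ch).mp hs).2.2.1 i) (by omega)).le)
    linarith

/-- (F1) -/
theorem phi_zero (N : ℕ) {d : ℕ} (s : LT d) : Phi N 0 s = ((d + 1).factorial : ℝ) := by
  induction s with
  | leaf => rw [phi_leaf]; simp
  | @node m u b ch ih =>
    rw [phi_node]
    simp only [pow_zero, mul_one, ih, Finset.sum_const, Finset.card_univ, Fintype.card_fin,
      nsmul_eq_mul]
    rw [Nat.factorial_succ (m + 1)]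
    push_cast
    ring

/-- (F2) -/
theorem phi_young (N : ℕ) {d : ℕ} (s : LT d) (hs : s.Ok) (hd : d ≤ N) (p : ℕ) (x0 : ℝ)
    (hx0 : 0 ≤ x0) :
    ((p : ℝ) + 1) * x0 * Phi N p s ≤ x0 ^ (p + 1) * Phi N 0 s + p * Phi N (p + 1) s := by
  induction s with
  | leaf =>
    simp only [phi_leaf, mul_one]
    have := young_nat p x0 1 hx0 zero_le_one
    simpa using this
  | @node m u b ch ih =>
    have hok := (ok_node u b ch).mp hs
    have hx := (X_pos N (LT.node u b ch) hs hd).le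
    have hy := young_nat p x0 (X N (LT.node u b ch)) hx0 hx
    have hsum : ∑ i, ((p : ℝ) + 1) * x0 * Phi N p (ch i)
        ≤ ∑ i, (x0 ^ (p + 1) * Phi N 0 (ch i) + p * Phi N (p + 1) (ch i)) :=
      Finset.sum_le_sum (fun i _ => ih i (hok.2.2.1 i) (by omega))
    rw [Finset.sum_add_distrib, ← Finset.mul_sum, ← Finset.mul_sum, ← Finset.mul_sum] at hsum
    have hf : (0 : ℝ) ≤ ((m + 1).factorial : ℝ) := Nat.cast_nonneg _
    have hy' := mul_le_mul_of_nonneg_left hy hf
    simp only [phi_node, pow_zero, mul_one]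
    nlinarith [hy', hsum]

/-- (F3) -/
theorem phi_top (N : ℕ) {d : ℕ} (s : LT d) (hs : s.Ok) (hd : d ≤ N) :
    Phi N (N + 1) s = ∑ j ∈ Finset.range (d + 1),
      ((N.factorial : ℝ) / ((N - d + j).factorial : ℝ)) * LT.Om j s := by
  induction s with
  | leaf =>
    have hN : ((N.factorial : ℝ)) ≠ 0 := by positivity
    rw [phi_leaf]
    simp [om_zero, u_leaf, hN]
  | @node m u b ch ih =>
    have hok := (ok_node u b ch).mp hs
    have hch : ∀ i, Phi N (N + 1) (ch i) = ∑ j ∈ Finset.range (m + 1),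
        ((N.factorial : ℝ) / ((N - m + j).factorial : ℝ)) * LT.Om j (ch i) :=
      fun i => ih i (hok.2.2.1 i) (by omega)
    rw [phi_node, X_pow N _ hs hd, u_node, Finset.sum_range_succ']
    simp only [hch, om_succ_node, om_zero, u_node]
    rw [Finset.sum_comm]
    have e1 : ∀ j ∈ Finset.range (m + 1),
        ∑ i, ((N.factorial : ℝ) / ((N - m + j).factorial : ℝ)) * LT.Om j (ch i)
          = ((N.factorial : ℝ) / ((N - (m + 1) + (j + 1)).factorial : ℝ)) * ∑ i, LT.Om j (ch i) := by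
      intro j _
      rw [Finset.mul_sum]
      have : N - m + j = N - (m + 1) + (j + 1) := by omega
      rw [this]
    rw [Finset.sum_congr rfl e1, add_comm]
    congr 1
    have hc := Nat.choose_mul_factorial_mul_factorial hd
    have hc' : (N.choose (m + 1) : ℝ) * ((m + 1).factorial : ℝ) * ((N - (m + 1)).factorial : ℝ)
        = (N.factorial : ℝ) := by exact_mod_cast hc
    have hne : ((N - (m + 1)).factorial : ℝ) ≠ 0 := by positivity
    rw [show N - (m + 1) + 0 = N - (m + 1) from rfl, ← hc']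
    field_simp

theorem step_le (N : ℕ) {m : ℕ} (u b : ℝ) (ch : Fin (m + 1) → LT m)
    (hs : (LT.node u b ch).Ok) (hd : m + 1 ≤ N) :
    ∑ i, Bt N (ch i) ≤ Bt N (LT.node u b ch) * X N (LT.node u b ch) := by
  have hok := (ok_node u b ch).mp hs
  have hu : 0 < u := hok.1
  set x := X N (LT.node u b ch) with hxdef
  have hx : 0 < x := X_pos N _ hs hd
  have hxp : x ^ (N + 1) = (N.choose (m + 1) : ℝ) * u := by
    rw [hxdef, X_pow N _ hs hd, u_node]
  have hN1 : (0 : ℝ) < (N : ℝ) + 1 := by positivity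
  set K : ℝ := x ^ (N - m) * ((m + 1).factorial : ℝ) / ((N : ℝ) + 1) ^ (m + 1) with hK
  have hKpos : 0 < K := by positivity
  have hfac : ((m + 1).factorial : ℝ) = ((m : ℝ) + 1) * (m.factorial : ℝ) := by
    rw [Nat.factorial_succ]
    push_cast
    ring
  have hper : ∀ i, Bt N (ch i) ≤ (1 + (ch i).u / u) * (ch i).b * K := by
    intro i
    have hoki := hok.2.2.1 i
    have hxi : 0 < X N (ch i) := X_pos N _ hoki (by omega)
    have hxip : X N (ch i) ^ (N + 1) = (N.choose m : ℝ) * (ch i).u := X_pow N _ hoki (by omega)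
    have hui := ok_u_pos _ hoki
    have hbi := ok_b_pos _ hoki
    set r := X N (ch i) / x with hr
    have hr0 : 0 ≤ r := by positivity
    have ham := amgm_nat (N - m) (m + 1) r hr0
    have hNm : N - m + (m + 1) = N + 1 := by omega
    rw [hNm] at ham
    have hchoose : (N.choose (m + 1) : ℝ) * ((m : ℝ) + 1)
        = (N.choose m : ℝ) * ((N - m : ℕ) : ℝ) := by
      have := Nat.choose_succ_right_eq N m
      exact_mod_cast this
    have hcpos : (0 : ℝ) < (N.choose (m + 1) : ℝ) := by exact_mod_cast Nat.choose_pos hd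
    have hrp : ((N - m : ℕ) : ℝ) * r ^ (N + 1) = ((m : ℝ) + 1) * ((ch i).u / u) := by
      rw [hr, div_pow, hxip, hxp]
      field_simp
      linear_combination -hchoose
    have h1 : (((N + 1 : ℕ) : ℝ)) * r ^ (N - m) ≤ ((m : ℝ) + 1) * (1 + (ch i).u / u) := by
      have e : ((m + 1 : ℕ) : ℝ) + ((N - m : ℕ) : ℝ) * r ^ (N + 1)
          = ((m : ℝ) + 1) * (1 + (ch i).u / u) := by
        rw [hrp]
        push_cast
        ring
      linarith
    have hxi_eq : X N (ch i) ^ (N - m) = r ^ (N - m) * x ^ (N - m) := by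
      rw [hr, div_pow]
      field_simp
    have e : Bt N (ch i)
        = ((((N + 1 : ℕ) : ℝ)) * r ^ (N - m))
          * ((ch i).b * x ^ (N - m) * (m.factorial : ℝ) / ((N : ℝ) + 1) ^ (m + 1)) := by
      unfold Bt
      rw [hxi_eq]
      push_cast
      field_simp
      ring
    have e' : (1 + (ch i).u / u) * (ch i).b * K
        = (((m : ℝ) + 1) * (1 + (ch i).u / u))
          * ((ch i).b * x ^ (N - m) * (m.factorial : ℝ) / ((N : ℝ) + 1) ^ (m + 1)) := by
      rw [hK, hfac]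
      ring
    rw [e, e']
    exact mul_le_mul_of_nonneg_right h1 (by positivity)
  calc ∑ i, Bt N (ch i) ≤ ∑ i, (1 + (ch i).u / u) * (ch i).b * K :=
        Finset.sum_le_sum (fun i _ => hper i)
    _ = (∑ i, (1 + (ch i).u / u) * (ch i).b) * K := by rw [Finset.sum_mul]
    _ ≤ b * K := mul_le_mul_of_nonneg_right hok.2.2.2 hKpos.le
    _ = Bt N (LT.node u b ch) * x := by
        have hsub : N - m = (N - (m + 1)) + 1 := by omega
        unfold Bt
        rw [b_node, ← hxdef, hK, hsub, pow_succ]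
        ring

theorem X_leaf (N : ℕ) : X N LT.leaf = 1 := by
  unfold X
  rw [u_leaf]
  simp

/-- (KEY) -/
theorem key (N : ℕ) {d : ℕ} (s : LT d) (hs : s.Ok) (hd : d ≤ N) :
    ((d : ℝ) + 1) * ((d.factorial : ℝ)) ^ 2 ≤ Bt N s * Phi N (d + 1) s := by
  induction s with
  | leaf =>
    rw [phi_leaf]
    unfold Bt
    rw [b_leaf, X_leaf]
    simp
  | @node m u b ch ih =>
    have hok := (ok_node u b ch).mp hs
    set x := X N (LT.node u b ch) with hxdef
    have hx : 0 < x := X_pos N _ hs hd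
    have hβ : 0 < Bt N (LT.node u b ch) := by
      unfold Bt
      rw [b_node, ← hxdef]
      have := hok.2.1
      positivity
    have hΦpos : ∀ i, 0 < Phi N (m + 1) (ch i) :=
      fun i => phi_pos N (m + 1) (ch i) (hok.2.2.1 i) (by omega)
    have hih : ∀ i, ((m : ℝ) + 1) * ((m.factorial : ℝ)) ^ 2
        ≤ Bt N (ch i) * Phi N (m + 1) (ch i) := fun i => ih i (hok.2.2.1 i) (by omega)
    set c : ℝ := ((m : ℝ) + 1) * ((m.factorial : ℝ)) ^ 2 with hc
    have hcpos : 0 < c := by positivity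
    set S1 := ∑ i, Bt N (ch i) with hS1
    set S2 := ∑ i, Phi N (m + 1) (ch i) with hS2
    have hS2pos : 0 < S2 := Finset.sum_pos (fun i _ => hΦpos i) Finset.univ_nonempty
    have hcs : (∑ _i : Fin (m + 1), (1 : ℝ)) ^ 2 / S2
        ≤ ∑ i : Fin (m + 1), (1 : ℝ) ^ 2 / Phi N (m + 1) (ch i) :=
      Finset.sq_sum_div_le_sum_sq_div Finset.univ (fun _ => (1 : ℝ)) (fun i _ => hΦpos i)
    have hcard : (∑ _i : Fin (m + 1), (1 : ℝ)) = (m : ℝ) + 1 := by simp
    have hlow : c * (((m : ℝ) + 1) ^ 2 / S2) ≤ S1 := by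
      calc c * (((m : ℝ) + 1) ^ 2 / S2)
          ≤ c * ∑ i : Fin (m + 1), (1 : ℝ) ^ 2 / Phi N (m + 1) (ch i) := by
            rw [← hcard]
            exact mul_le_mul_of_nonneg_left hcs hcpos.le
        _ = ∑ i : Fin (m + 1), c / Phi N (m + 1) (ch i) := by
            rw [Finset.mul_sum]
            apply Finset.sum_congr rfl
            intro i _
            rw [one_pow, mul_one_div]
        _ ≤ S1 := Finset.sum_le_sum (fun i _ => by
            rw [div_le_iff₀ (hΦpos i)]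
            exact hih i)
    have hS1S2 : c * ((m : ℝ) + 1) ^ 2 ≤ S1 * S2 := by
      have h := mul_le_mul_of_nonneg_right hlow hS2pos.le
      rwa [mul_assoc, div_mul_cancel₀ _ hS2pos.ne'] at h
    have hstep : S1 ≤ Bt N (LT.node u b ch) * x := step_le N u b ch hs hd
    have hyoung : ((m : ℝ) + 2) * x * S2
        ≤ ((m : ℝ) + 1) * Phi N (m + 1 + 1) (LT.node u b ch) := by
      have h : ∀ i, ((((m + 1 : ℕ)) : ℝ) + 1) * x * Phi N (m + 1) (ch i)
          ≤ x ^ (m + 1 + 1) * Phi N 0 (ch i)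
            + ((m + 1 : ℕ) : ℝ) * Phi N (m + 1 + 1) (ch i) :=
        fun i => phi_young N (ch i) (hok.2.2.1 i) (by omega) (m + 1) x hx.le
      have hsum := Finset.sum_le_sum (fun i (_ : i ∈ Finset.univ) => h i)
      rw [Finset.sum_add_distrib, ← Finset.mul_sum, ← Finset.mul_sum, ← Finset.mul_sum] at hsum
      simp only [phi_zero, Finset.sum_const, Finset.card_univ, Fintype.card_fin,
        nsmul_eq_mul] at hsum
      rw [← hS2] at hsum
      rw [phi_node, ← hxdef]
      push_cast at hsum ⊢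
      linarith
    have hfac : ((m + 1).factorial : ℝ) = ((m : ℝ) + 1) * (m.factorial : ℝ) := by
      rw [Nat.factorial_succ]
      push_cast
      ring
    have h1 : ((m : ℝ) + 2) * (S1 * S2)
        ≤ ((m : ℝ) + 1) * (Bt N (LT.node u b ch) * Phi N (m + 1 + 1) (LT.node u b ch)) := by
      calc ((m : ℝ) + 2) * (S1 * S2)
          ≤ ((m : ℝ) + 2) * ((Bt N (LT.node u b ch) * x) * S2) := by
            apply mul_le_mul_of_nonneg_left _ (by positivity)
            exact mul_le_mul_of_nonneg_right hstep hS2pos.le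
        _ = Bt N (LT.node u b ch) * (((m : ℝ) + 2) * x * S2) := by ring
        _ ≤ Bt N (LT.node u b ch) * (((m : ℝ) + 1) * Phi N (m + 1 + 1) (LT.node u b ch)) :=
            mul_le_mul_of_nonneg_left hyoung hβ.le
        _ = _ := by ring
    have h2 : ((m : ℝ) + 1) * ((((m + 1 : ℕ) : ℝ) + 1) * (((m + 1).factorial : ℝ)) ^ 2)
        ≤ ((m : ℝ) + 1) * (Bt N (LT.node u b ch) * Phi N (m + 1 + 1) (LT.node u b ch)) := by
      have e : ((m : ℝ) + 1) * ((((m + 1 : ℕ) : ℝ) + 1) * (((m + 1).factorial : ℝ)) ^ 2)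
          = ((m : ℝ) + 2) * (c * ((m : ℝ) + 1) ^ 2) := by
        rw [hfac, hc]
        push_cast
        ring
      rw [e]
      calc ((m : ℝ) + 2) * (c * ((m : ℝ) + 1) ^ 2) ≤ ((m : ℝ) + 2) * (S1 * S2) :=
            mul_le_mul_of_nonneg_left hS1S2 (by positivity)
        _ ≤ _ := h1
    exact le_of_mul_le_mul_left h2 (by positivity)

theorem tree_alg {m : ℕ} (t : LT m) (ht : t.Ok) :
    ((m : ℝ) + 1) ^ (m + 1) ≤ t.b * ∑ k ∈ Finset.range (m + 1), t.Om k / (k.factorial : ℝ) := by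
  have hk := key m t ht le_rfl
  rw [phi_top m t ht le_rfl] at hk
  unfold Bt at hk
  simp only [Nat.sub_self, pow_zero, mul_one, Nat.zero_add] at hk
  have hfm : (0 : ℝ) < (m.factorial : ℝ) := by positivity
  have hpow : (0 : ℝ) < ((m : ℝ) + 1) ^ m := by positivity
  have e0 : ∑ j ∈ Finset.range (m + 1), (m.factorial : ℝ) / (j.factorial : ℝ) * LT.Om j t
      = (m.factorial : ℝ) * ∑ k ∈ Finset.range (m + 1), t.Om k / (k.factorial : ℝ) := by
    rw [Finset.mul_sum]
    apply Finset.sum_congr rfl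
    intro j _
    ring
  rw [e0] at hk
  have h3 := mul_le_mul_of_nonneg_right hk hpow.le
  have e1 : t.b * (m.factorial : ℝ) / ((m : ℝ) + 1) ^ m
        * ((m.factorial : ℝ) * ∑ k ∈ Finset.range (m + 1), t.Om k / (k.factorial : ℝ))
        * ((m : ℝ) + 1) ^ m
      = ((m.factorial : ℝ)) ^ 2
        * (t.b * ∑ k ∈ Finset.range (m + 1), t.Om k / (k.factorial : ℝ)) := by
    field_simp
  rw [e1] at h3
  have h4 : ((m.factorial : ℝ)) ^ 2 * (((m : ℝ) + 1) ^ (m + 1))
      ≤ ((m.factorial : ℝ)) ^ 2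
        * (t.b * ∑ k ∈ Finset.range (m + 1), t.Om k / (k.factorial : ℝ)) := by
    calc ((m.factorial : ℝ)) ^ 2 * (((m : ℝ) + 1) ^ (m + 1))
        = ((m : ℝ) + 1) * ((m.factorial : ℝ)) ^ 2 * ((m : ℝ) + 1) ^ m := by
          rw [pow_succ]
          ring
      _ ≤ _ := h3
  exact le_of_mul_le_mul_left h4 (by positivity)

end Vale.Agent.Lib.P248.H7
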